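import Mathlib

/-!
# P039-B, block L4 (Step 4): a 2-factor gives a matching with non-zero signed sum

Abstract interface (no web).  `B` = black vertices off the root, `V` = faces off the
root triangle, `F b c` = the face of class `c` at `b` (`none` = a root face).
-/

namespace Vale.Agent.P039.H311

open Finset

set_option linter.unusedSectionVars false
set_option linter.unusedVariables false

/-- `f` is a matching, with bijection `e`. -/
def IsMat {B V : Type*} (F : B → Fin 3 → Option V) (f : B → Fin 3) (e : B ≃ V) : Prop :=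
  ∀ b, F b (f b) = some (e b)

/-- two corner choices that differ at every black vertex -/
def Disj {B : Type*} (f g : B → Fin 3) : Prop := ∀ b, f b ≠ g b

/-- the sign of a difference of classes -/
def eps (c : Fin 3) : ℤ := if c = 1 then 1 else -1

theorem eps_anti : ∀ x y : Fin 3, x ≠ y → eps (x - y) = - eps (y - x) := by
  decide

theorem eps_sq : ∀ x : Fin 3, eps x = 1 ∨ eps x = -1 := by
  decide

/-- sign of an ordered pair of disjoint matchings -/
def sg {B : Type*} [Fintype B] (f g : B → Fin 3) : ℤ := ∏ b, eps (g b - f b)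

section

variable {B V : Type*} [Fintype B] [DecidableEq B]

/-- the pairs of disjoint matchings -/
def IsPair (F : B → Fin 3 → Option V) (p : (B → Fin 3) × (B → Fin 3)) : Prop :=
  (∃ e : B ≃ V, IsMat F p.1 e) ∧ (∃ e : B ≃ V, IsMat F p.2 e) ∧ Disj p.1 p.2

/-- a function that is constant on the cycles of the pair -/
def IsInv (F : B → Fin 3 → Option V) (p : (B → Fin 3) × (B → Fin 3)) (s : B → Bool) : Prop :=
  ∀ b b', F b (p.1 b) = F b' (p.2 b') → s b = s b'

/-- reverse the cycles on which `s` is true -/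
def flip (p : (B → Fin 3) × (B → Fin 3)) (s : B → Bool) : (B → Fin 3) × (B → Fin 3) :=
  (fun b => if s b then p.2 b else p.1 b, fun b => if s b then p.1 b else p.2 b)

theorem flip_flip (p : (B → Fin 3) × (B → Fin 3)) (s : B → Bool) : flip (flip p s) s = p := by
  rcases p with ⟨f, g⟩
  simp only [flip, Prod.mk.injEq]
  constructor <;> funext b <;> cases s b <;> simp

theorem IsMat.inj {F : B → Fin 3 → Option V} {f : B → Fin 3} {e : B ≃ V} (h : IsMat F f e)
    {b b' : B} (hb : F b (f b) = F b' (f b')) : b = b' := by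
  rw [h b, h b'] at hb
  exact e.injective (Option.some.inj hb)

theorem IsPair.flip {F : B → Fin 3 → Option V} {p : (B → Fin 3) × (B → Fin 3)}
    (h : IsPair F p) {s : B → Bool} (hs : IsInv F p s) : IsPair F (flip p s) := by
  obtain ⟨⟨e, he⟩, ⟨e', he'⟩, hd⟩ := h
  -- the value of the new matchings
  have key1 : ∃ e1 : B ≃ V, IsMat F (H311.flip p s).1 e1 := by
    let m : B → V := fun b => if s b then e' b else e b
    have hm : ∀ b, F b ((H311.flip p s).1 b) = some (m b) := by
      intro b
      simp only [H311.flip, m]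
      cases hsb : s b
      · simpa using he b
      · simpa using he' b
    have hinj : Function.Injective m := by
      intro b b' hbb
      have h1 : F b ((H311.flip p s).1 b) = F b' ((H311.flip p s).1 b') := by
        rw [hm, hm, hbb]
      simp only [H311.flip] at h1
      cases hsb : s b <;> cases hsb' : s b' <;> simp only [hsb, hsb'] at h1
      · exact he.inj (by simpa using h1)
      · have := hs b b' (by simpa using h1)
        rw [hsb, hsb'] at this; cases this
      · have := hs b' b (by simpa using h1.symm)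
        rw [hsb, hsb'] at this; cases this
      · exact he'.inj (by simpa using h1)
    have hbij : Function.Bijective m := by
      have h2 : Function.Injective (e.symm ∘ m) := e.symm.injective.comp hinj
      have h3 := Finite.injective_iff_surjective.1 h2
      refine ⟨hinj, ?_⟩
      intro v
      obtain ⟨b, hb⟩ := h3 (e.symm v)
      exact ⟨b, e.symm.injective hb⟩
    exact ⟨Equiv.ofBijective m hbij, fun b => by rw [hm b]; rfl⟩
  have key2 : ∃ e1 : B ≃ V, IsMat F (H311.flip p s).2 e1 := by
    let m : B → V := fun b => if s b then e b else e' b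
    have hm : ∀ b, F b ((H311.flip p s).2 b) = some (m b) := by
      intro b
      simp only [H311.flip, m]
      cases hsb : s b
      · simpa using he' b
      · simpa using he b
    have hinj : Function.Injective m := by
      intro b b' hbb
      have h1 : F b ((H311.flip p s).2 b) = F b' ((H311.flip p s).2 b') := by
        rw [hm, hm, hbb]
      simp only [H311.flip] at h1
      cases hsb : s b <;> cases hsb' : s b' <;> simp only [hsb, hsb'] at h1
      · exact he'.inj (by simpa using h1)
      · have := hs b' b (by simpa using h1.symm)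
        rw [hsb, hsb'] at this; cases this
      · have := hs b b' (by simpa using h1)
        rw [hsb, hsb'] at this; cases this
      · exact he.inj (by simpa using h1)
    have hbij : Function.Bijective m := by
      have h2 : Function.Injective (e.symm ∘ m) := e.symm.injective.comp hinj
      have h3 := Finite.injective_iff_surjective.1 h2
      refine ⟨hinj, ?_⟩
      intro v
      obtain ⟨b, hb⟩ := h3 (e.symm v)
      exact ⟨b, e.symm.injective hb⟩
    exact ⟨Equiv.ofBijective m hbij, fun b => by rw [hm b]; rfl⟩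
  refine ⟨key1, key2, ?_⟩
  intro b
  simp only [H311.flip]
  cases s b
  · simpa using hd b
  · simpa using (hd b).symm

theorem IsInv.flip {F : B → Fin 3 → Option V} {p : (B → Fin 3) × (B → Fin 3)}
    (h : IsPair F p) {s s' : B → Bool} (hs' : IsInv F p s') (hs : IsInv F p s) :
    IsInv F (flip p s) s' := by
  obtain ⟨⟨e, he⟩, ⟨e', he'⟩, hd⟩ := h
  intro b b' hbb
  simp only [H311.flip] at hbb
  cases hsb : s b <;> cases hsb' : s b' <;> simp only [hsb, hsb'] at hbb
  · exact hs' b b' (by simpa using hbb)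
  · rw [he.inj (b := b) (b' := b') (by simpa using hbb)]
  · rw [he'.inj (b := b) (b' := b') (by simpa using hbb)]
  · exact (hs' b' b (by simpa using hbb.symm)).symm

theorem isInv_flip_iff {F : B → Fin 3 → Option V} {p : (B → Fin 3) × (B → Fin 3)}
    (h : IsPair F p) {s : B → Bool} (hs : IsInv F p s) (s' : B → Bool) :
    IsInv F (flip p s) s' ↔ IsInv F p s' := by
  constructor
  · intro h'
    have := IsInv.flip (h.flip hs) h' (IsInv.flip h hs hs)
    rwa [flip_flip] at this
  · intro h'
    exact IsInv.flip h h' hs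

end

section

variable {B V : Type*} [Fintype B] [DecidableEq B]

open Complex in
/-- the weight of an ordered pair; a factor `I` for every black vertex is included -/
noncomputable def wt (t : ℝ) (u : B → Fin 3 → ℝ) (p : (B → Fin 3) × (B → Fin 3)) : ℂ :=
  ∏ b, (Complex.I * ((eps (p.2 b - p.1 b) : ℤ) : ℂ) * Complex.exp ((t * u b (p.1 b) : ℝ) * Complex.I))

/-- the factor of `b`, in the original or in the reversed orientation -/
noncomputable def hh (t : ℝ) (u : B → Fin 3 → ℝ) (p : (B → Fin 3) × (B → Fin 3)) (x : Bool) (b : B) : ℂ :=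
  if x then (Complex.I * ((eps (p.1 b - p.2 b) : ℤ) : ℂ) * Complex.exp ((t * u b (p.2 b) : ℝ) * Complex.I))
  else (Complex.I * ((eps (p.2 b - p.1 b) : ℤ) : ℂ) * Complex.exp ((t * u b (p.1 b) : ℝ) * Complex.I))

theorem wt_flip (t : ℝ) (u : B → Fin 3 → ℝ) (p : (B → Fin 3) × (B → Fin 3)) (s : B → Bool) :
    wt t u (flip p s) = ∏ b, hh t u p (s b) b := by
  unfold wt hh flip
  apply Finset.prod_congr rfl
  intro b _
  cases hsb : s b <;> simp [hsb]

/-- the permutation of a pair: `b ↦` the black vertex matched by `g` to the face of `b` under `f` -/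
def per {V : Type*} (e e' : B ≃ V) : Equiv.Perm B := e.trans e'.symm

theorem isInv_iff {F : B → Fin 3 → Option V} {p : (B → Fin 3) × (B → Fin 3)} {e e' : B ≃ V}
    (he : IsMat F p.1 e) (he' : IsMat F p.2 e') (s : B → Bool) :
    IsInv F p s ↔ ∀ b, s (per e e' b) = s b := by
  constructor
  · intro h b
    refine (h b (per e e' b) ?_).symm
    rw [he b, he' (per e e' b)]
    simp [per]
  · intro h b b' hbb
    rw [he b, he' b'] at hbb
    have h1 : b' = per e e' b := by
      have := Option.some.inj hbb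
      simp [per, this]
    rw [h1, h b]

theorem const_of_step {σ : Equiv.Perm B} {s : B → Bool} (h : ∀ b, s (σ b) = s b) {b b' : B}
    (hb : σ.SameCycle b b') : s b = s b' := by
  obtain ⟨i, hi⟩ := hb
  rw [← hi]
  have hz : ∀ n : ℕ, ∀ b, s ((σ ^ n) b) = s b := by
    intro n
    induction n with
    | zero => intro b; simp
    | succ n ih => intro b; rw [pow_succ, Equiv.Perm.mul_apply, ih, h]
  have hz' : ∀ n : ℤ, ∀ b, s ((σ ^ n) b) = s b := by
    intro n b
    cases n with
    | ofNat n => simpa using hz n b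
    | negSucc n =>
      have h2 := hz (n + 1) ((σ ^ (Int.negSucc n)) b)
      rw [← h2]
      congr 1
      rw [zpow_negSucc, ← Equiv.Perm.mul_apply, mul_inv_cancel, Equiv.Perm.one_apply]
  exact (hz' i b).symm

open Classical in
/-- sum over invariant functions = product over cycles -/
theorem sum_inv_eq (σ : Equiv.Perm B) (h : Bool → B → ℂ) :
    ∑ s ∈ univ.filter (fun s : B → Bool => ∀ b, s (σ b) = s b), ∏ b, h (s b) b
      = ∏ q : Quotient (Equiv.Perm.SameCycle.setoid σ),
          ∑ x : Bool, ∏ b ∈ univ.filter (fun b => (Quotient.mk (Equiv.Perm.SameCycle.setoid σ) b) = q), h x b := by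
  rw [Finset.prod_univ_sum]
  rw [Fintype.piFinset_univ]
  symm
  refine Finset.sum_nbij' (i := fun s b => s (Quotient.mk (Equiv.Perm.SameCycle.setoid σ) b))
    (j := fun s q => s (Quotient.out q)) ?_ ?_ ?_ ?_ ?_
  · intro s _
    simp only [mem_filter, mem_univ, true_and]
    intro b
    congr 1
    apply Quotient.sound
    exact (Equiv.Perm.SameCycle.symm ⟨1, by simp⟩)
  · intro s _
    exact mem_univ _
  · intro s _
    funext q
    simp
  · intro s hs
    simp only [mem_filter, mem_univ, true_and] at hs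
    funext b
    have h1 : (Equiv.Perm.SameCycle.setoid σ).r (Quotient.out (Quotient.mk (Equiv.Perm.SameCycle.setoid σ) b)) b :=
      Quotient.mk_out (s := Equiv.Perm.SameCycle.setoid σ) b
    exact const_of_step hs h1
  · intro s _
    rw [← Finset.prod_fiberwise (s := univ) (g := fun b => (Quotient.mk (Equiv.Perm.SameCycle.setoid σ) b))
      (f := fun b => h (s (Quotient.mk (Equiv.Perm.SameCycle.setoid σ) b)) b)]
    apply Finset.prod_congr rfl
    intro q _
    apply Finset.prod_congr rfl
    intro b hb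
    rw [(mem_filter.1 hb).2]

end

section

variable {B V : Type*} [Fintype B] [DecidableEq B]

open Classical in
/-- The planar input (CYC): every alternating cycle is odd and its sign, multiplied by the
circulation of `u`, is `(-1)^((k+1)/2)` up to a positive factor. -/
def Cyc (F : B → Fin 3 → Option V) (u : B → Fin 3 → ℝ) : Prop :=
  ∀ (f g : B → Fin 3) (e e' : B ≃ V), IsMat F f e → IsMat F g e' → Disj f g → ∀ b1 : B,
    Odd (univ.filter (fun b => (per e e').SameCycle b1 b)).card ∧
    0 < (-1 : ℝ) ^ (((univ.filter (fun b => (per e e').SameCycle b1 b)).card + 1) / 2)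
      * ((∏ b ∈ univ.filter (fun b => (per e e').SameCycle b1 b), eps (g b - f b) : ℤ) : ℝ)
      * ∑ b ∈ univ.filter (fun b => (per e e').SameCycle b1 b), (u b (f b) - u b (g b))

/-- a product of signs is a sign -/
theorem prod_eps_sq (K : Finset B) (f g : B → Fin 3) :
    (∏ b ∈ K, eps (g b - f b)) = 1 ∨ (∏ b ∈ K, eps (g b - f b)) = -1 := by
  classical
  induction K using Finset.induction_on with
  | empty => left; simp
  | insert a K ha ih =>
    rw [Finset.prod_insert ha]
    rcases eps_sq (g a - f a) with h | h <;> rcases ih with h' | h' <;> rw [h, h'] <;> norm_num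

theorem prod_eps_anti (K : Finset B) (f g : B → Fin 3) (hd : Disj f g) (hK : Odd K.card) :
    (∏ b ∈ K, eps (f b - g b)) = - ∏ b ∈ K, eps (g b - f b) := by
  have h1 : ∀ b ∈ K, eps (f b - g b) = (-1) * eps (g b - f b) := by
    intro b _
    rw [eps_anti _ _ (hd b)]; ring
  rw [Finset.prod_congr rfl h1, Finset.prod_mul_distrib, Finset.prod_const, hK.neg_one_pow]
  ring

/-- the factor of one cycle -/
theorem factor (t : ℝ) (u : B → Fin 3 → ℝ) (p : (B → Fin 3) × (B → Fin 3)) (K : Finset B)
    (hd : Disj p.1 p.2) (hK : Odd K.card) :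
    ∑ x : Bool, ∏ b ∈ K, hh t u p x b
      = Complex.exp (((t * (∑ b ∈ K, (u b (p.1 b) + u b (p.2 b)) / 2) : ℝ) : ℂ) * Complex.I)
        * (((-1 : ℝ) ^ ((K.card + 1) / 2) * ((∏ b ∈ K, eps (p.2 b - p.1 b) : ℤ) : ℝ)
          * (2 * Real.sin (t * (∑ b ∈ K, (u b (p.1 b) - u b (p.2 b))) / 2)) : ℝ) : ℂ) := by
  rw [Fintype.sum_bool]
  have hI : (Complex.I) ^ (K.card + 1) = (((-1 : ℝ) ^ ((K.card + 1) / 2) : ℝ) : ℂ) := by
    obtain ⟨r, hr⟩ := hK
    have h2 : (K.card + 1) / 2 = r + 1 := by omega
    have h3 : K.card + 1 = 2 * (r + 1) := by omega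
    rw [h2, h3, pow_mul, Complex.I_sq]
    push_cast
    ring
  have hF : ∏ b ∈ K, hh t u p false b = Complex.I ^ K.card
      * (((∏ b ∈ K, eps (p.2 b - p.1 b) : ℤ) : ℝ) : ℂ)
      * Complex.exp (((t * ∑ b ∈ K, u b (p.1 b) : ℝ) : ℂ) * Complex.I) := by
    unfold hh
    simp only [Bool.false_eq_true, if_false]
    rw [Finset.prod_mul_distrib, Finset.prod_mul_distrib, Finset.prod_const, ← Complex.exp_sum]
    congr 1
    · congr 1
      push_cast; rfl
    · congr 1
      rw [← Finset.sum_mul]
      congr 1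
      push_cast
      rw [Finset.mul_sum]
  have hT : ∏ b ∈ K, hh t u p true b = - (Complex.I ^ K.card
      * (((∏ b ∈ K, eps (p.2 b - p.1 b) : ℤ) : ℝ) : ℂ)
      * Complex.exp (((t * ∑ b ∈ K, u b (p.2 b) : ℝ) : ℂ) * Complex.I)) := by
    have h0 := prod_eps_anti K p.1 p.2 hd hK
    unfold hh
    simp only [if_true]
    rw [Finset.prod_mul_distrib, Finset.prod_mul_distrib, Finset.prod_const, ← Complex.exp_sum]
    have h4 : (∏ b ∈ K, (((eps (p.1 b - p.2 b)) : ℤ) : ℂ)) = - (((∏ b ∈ K, eps (p.2 b - p.1 b) : ℤ) : ℝ) : ℂ) := by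
      have : (∏ b ∈ K, (((eps (p.1 b - p.2 b)) : ℤ) : ℂ)) = (((∏ b ∈ K, eps (p.1 b - p.2 b) : ℤ)) : ℂ) := by
        push_cast; rfl
      rw [this, h0]
      push_cast; ring
    rw [h4]
    have h5 : (∑ x ∈ K, (((t * u x (p.2 x) : ℝ) : ℂ) * Complex.I)) = (((t * ∑ b ∈ K, u b (p.2 b) : ℝ) : ℂ) * Complex.I) := by
      rw [← Finset.sum_mul]
      congr 1
      push_cast
      rw [Finset.mul_sum]
    rw [h5]
    ring
  rw [hF, hT]
  set Pz : ℝ := ((∏ b ∈ K, eps (p.2 b - p.1 b) : ℤ) : ℝ) with hPz
  set U1 : ℝ := ∑ b ∈ K, u b (p.1 b) with hU1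
  set U2 : ℝ := ∑ b ∈ K, u b (p.2 b) with hU2
  have hS : (∑ b ∈ K, (u b (p.1 b) + u b (p.2 b)) / 2) = (U1 + U2) / 2 := by
    rw [← Finset.sum_div, Finset.sum_add_distrib]
  have hD : (∑ b ∈ K, (u b (p.1 b) - u b (p.2 b))) = U1 - U2 := by
    rw [Finset.sum_sub_distrib]
  rw [hS, hD]
  have e1 : Complex.exp (((t * U1 : ℝ) : ℂ) * Complex.I)
      = Complex.exp (((t * ((U1 + U2) / 2) : ℝ) : ℂ) * Complex.I)
        * Complex.exp (((t * (U1 - U2) / 2 : ℝ) : ℂ) * Complex.I) := by
    rw [← Complex.exp_add]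
    congr 1
    push_cast; ring
  have e2 : Complex.exp (((t * U2 : ℝ) : ℂ) * Complex.I)
      = Complex.exp (((t * ((U1 + U2) / 2) : ℝ) : ℂ) * Complex.I)
        * Complex.exp ((-(t * (U1 - U2) / 2 : ℝ) : ℂ) * Complex.I) := by
    rw [← Complex.exp_add]
    congr 1
    push_cast; ring
  have e3 : Complex.exp (((t * (U1 - U2) / 2 : ℝ) : ℂ) * Complex.I)
      - Complex.exp ((-(t * (U1 - U2) / 2 : ℝ) : ℂ) * Complex.I)
      = Complex.I * (((2 * Real.sin (t * (U1 - U2) / 2)) : ℝ) : ℂ) := by
    rw [Complex.exp_mul_I, Complex.exp_mul_I, Complex.cos_neg, Complex.sin_neg]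
    push_cast
    ring
  rw [e1, e2]
  calc _ = Complex.exp (((t * ((U1 + U2) / 2) : ℝ) : ℂ) * Complex.I) * (Complex.I ^ K.card * (Pz : ℂ)
        * (Complex.exp (((t * (U1 - U2) / 2 : ℝ) : ℂ) * Complex.I)
      - Complex.exp ((-(t * (U1 - U2) / 2 : ℝ) : ℂ) * Complex.I))) := by ring
    _ = Complex.exp (((t * ((U1 + U2) / 2) : ℝ) : ℂ) * Complex.I) * (Complex.I ^ (K.card + 1) * (Pz : ℂ)
        * (((2 * Real.sin (t * (U1 - U2) / 2)) : ℝ) : ℂ)) := by rw [e3, pow_succ]; ring
    _ = _ := by rw [hI]; push_cast; ring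

end

section

variable {B V : Type*} [Fintype B] [DecidableEq B]

open Classical in
/-- the sum over the reversals of one pair -/
theorem sum_flip {F : B → Fin 3 → Option V} {u : B → Fin 3 → ℝ} (hC : Cyc F u)
    {t : ℝ} (ht0 : 0 < t) (ht : t * (∑ b, ∑ c, |u b c|) ≤ 1)
    {p : (B → Fin 3) × (B → Fin 3)} (hp : IsPair F p) :
    ∃ r : ℝ, 0 < r ∧ ∑ s ∈ univ.filter (IsInv F p), wt t u (flip p s)
      = Complex.exp (((t * (∑ b, (u b (p.1 b) + u b (p.2 b)) / 2) : ℝ) : ℂ) * Complex.I) * (r : ℂ) := by
  obtain ⟨⟨e, he⟩, ⟨e', he'⟩, hd⟩ := hp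
  set Q := Quotient (Equiv.Perm.SameCycle.setoid (per e e'))
  let K : Q → Finset B := fun q =>
    univ.filter (fun b => (Quotient.mk (Equiv.Perm.SameCycle.setoid (per e e')) b) = q)
  let r : Q → ℝ := fun q => (-1 : ℝ) ^ (((K q).card + 1) / 2)
      * ((∏ b ∈ K q, eps (p.2 b - p.1 b) : ℤ) : ℝ)
      * (2 * Real.sin (t * (∑ b ∈ K q, (u b (p.1 b) - u b (p.2 b))) / 2))
  have hKeq : ∀ q : Q, ∃ b1 : B, K q = univ.filter (fun b => (per e e').SameCycle b1 b) := by
    intro q
    refine ⟨Quotient.out q, ?_⟩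
    ext b
    simp only [K, mem_filter, mem_univ, true_and]
    constructor
    · intro h
      rw [← h]
      exact Quotient.mk_out (s := Equiv.Perm.SameCycle.setoid (per e e')) b
    · intro h
      have h1 : (Quotient.mk (Equiv.Perm.SameCycle.setoid (per e e')) (Quotient.out q))
          = (Quotient.mk (Equiv.Perm.SameCycle.setoid (per e e')) b) := Quotient.sound h
      rw [← h1, Quotient.out_eq]
  have hodd : ∀ q : Q, Odd (K q).card := by
    intro q
    obtain ⟨b1, hb1⟩ := hKeq q
    have := (hC p.1 p.2 e e' he he' hd b1).1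
    rw [hb1]; exact this
  have hA : ∀ q : Q, |∑ b ∈ K q, (u b (p.1 b) - u b (p.2 b))| ≤ ∑ b, ∑ c, |u b c| := by
    intro q
    refine (Finset.abs_sum_le_sum_abs _ _).trans ?_
    refine (Finset.sum_le_sum (f := fun b => |u b (p.1 b) - u b (p.2 b)|)
      (g := fun b => ∑ c, |u b c|) ?_).trans ?_
    · intro b _
      have h1 : |u b (p.1 b)| + |u b (p.2 b)| ≤ ∑ c, |u b c| := by
        rw [← Finset.sum_pair (f := fun c => |u b c|) (hd b)]
        exact Finset.sum_le_sum_of_subset_of_nonneg (Finset.subset_univ _) (fun _ _ _ => abs_nonneg _)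
      exact (abs_sub _ _).trans h1
    · exact Finset.sum_le_sum_of_subset_of_nonneg (Finset.subset_univ _)
        (fun _ _ _ => Finset.sum_nonneg (fun _ _ => abs_nonneg _))
  have hr : ∀ q : Q, 0 < r q := by
    intro q
    obtain ⟨b1, hb1⟩ := hKeq q
    have h1 := (hC p.1 p.2 e e' he he' hd b1).2
    rw [← hb1] at h1
    set A : ℝ := ∑ b ∈ K q, (u b (p.1 b) - u b (p.2 b)) with hAdef
    have hA1 : |t * A / 2| ≤ 1 := by
      rw [abs_div, abs_mul, abs_of_pos ht0, abs_two]
      have := mul_le_mul_of_nonneg_left (hA q) ht0.le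
      have h3 : t * |A| ≤ 1 := this.trans ht
      have h4 : 0 ≤ t * |A| := by positivity
      linarith
    -- the sign `w`
    set w : ℝ := (-1 : ℝ) ^ (((K q).card + 1) / 2) * ((∏ b ∈ K q, eps (p.2 b - p.1 b) : ℤ) : ℝ) with hw
    have hw1 : w = 1 ∨ w = -1 := by
      have e1 : (-1 : ℝ) ^ (((K q).card + 1) / 2) = 1 ∨ (-1 : ℝ) ^ (((K q).card + 1) / 2) = -1 :=
        neg_one_pow_eq_or ℝ _
      rcases prod_eps_sq (K q) p.1 p.2 with h2 | h2 <;> rcases e1 with h3 | h3 <;>
        rw [hw, h2, h3] <;> norm_num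
    show 0 < w * (2 * Real.sin (t * A / 2))
    rcases hw1 with h2 | h2
    · rw [h2] at h1 ⊢
      have hApos : 0 < A := by linarith
      have h3 : 0 < t * A / 2 := by positivity
      have h4 : t * A / 2 ≤ 1 := (abs_le.1 hA1).2
      have := Real.sin_pos_of_pos_of_le_one h3 h4
      linarith
    · rw [h2] at h1 ⊢
      have hApos : 0 < -A := by linarith
      have h3 : 0 < -(t * A / 2) := by
        have : 0 < t * (-A) / 2 := by positivity
        linarith
      have h4 : -(t * A / 2) ≤ 1 := by
        have := (abs_le.1 hA1).1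
        linarith
      have := Real.sin_pos_of_pos_of_le_one h3 h4
      rw [Real.sin_neg] at this
      linarith
  refine ⟨∏ q, r q, Finset.prod_pos (fun q _ => hr q), ?_⟩
  have h1 : univ.filter (IsInv F p) = univ.filter (fun s : B → Bool => ∀ b, s (per e e' b) = s b) := by
    ext s
    simp only [mem_filter, mem_univ, true_and]
    exact isInv_iff he he' s
  rw [h1, Finset.sum_congr rfl (fun s _ => wt_flip t u p s), sum_inv_eq (per e e') (hh t u p)]
  have h2 : ∀ q : Q, ∑ x : Bool, ∏ b ∈ univ.filter (fun b =>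
      (Quotient.mk (Equiv.Perm.SameCycle.setoid (per e e')) b) = q), hh t u p x b
      = Complex.exp (((t * (∑ b ∈ K q, (u b (p.1 b) + u b (p.2 b)) / 2) : ℝ) : ℂ) * Complex.I)
        * ((r q : ℝ) : ℂ) := by
    intro q
    exact factor t u p (K q) hd (hodd q)
  rw [Finset.prod_congr rfl (fun q _ => h2 q), Finset.prod_mul_distrib, ← Complex.exp_sum]
  congr 1
  · congr 1
    rw [← Finset.sum_mul]
    congr 1
    rw [← Complex.ofReal_sum]
    congr 1
    rw [← Finset.mul_sum]
    congr 1
    exact Finset.sum_fiberwise (s := univ)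
      (g := fun b => (Quotient.mk (Equiv.Perm.SameCycle.setoid (per e e')) b))
      (f := fun b => (u b (p.1 b) + u b (p.2 b)) / 2)
  · push_cast; rfl

open Classical in
/-- averaging over the reversals -/
theorem sum_avg (F : B → Fin 3 → Option V) (G : (B → Fin 3) × (B → Fin 3) → ℂ) :
    ∑ p ∈ univ.filter (IsPair F), G p
      = ∑ p ∈ univ.filter (IsPair F), (((univ.filter (IsInv F p)).card : ℂ))⁻¹
          * ∑ s ∈ univ.filter (IsInv F p), G (flip p s) := by
  have h1 : ∀ p ∈ univ.filter (IsPair F), G p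
      = ∑ s ∈ univ.filter (IsInv F p), (((univ.filter (IsInv F p)).card : ℂ))⁻¹ * G p := by
    intro p _
    rw [Finset.sum_const, nsmul_eq_mul]
    have : ((univ.filter (IsInv F p)).card : ℂ) ≠ 0 := by
      rw [Nat.cast_ne_zero]
      apply Finset.card_ne_zero_of_mem (a := fun _ => true)
      simp [IsInv]
    field_simp
  rw [Finset.sum_congr rfl h1]
  simp_rw [Finset.mul_sum]
  rw [Finset.sum_sigma', Finset.sum_sigma']
  refine Finset.sum_nbij' (i := fun x => ⟨flip x.1 x.2, x.2⟩) (j := fun x => ⟨flip x.1 x.2, x.2⟩) ?_ ?_ ?_ ?_ ?_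
  · rintro ⟨p, s⟩ h
    simp only [mem_sigma, mem_filter, mem_univ, true_and] at h ⊢
    exact ⟨h.1.flip h.2, IsInv.flip h.1 h.2 h.2⟩
  · rintro ⟨p, s⟩ h
    simp only [mem_sigma, mem_filter, mem_univ, true_and] at h ⊢
    exact ⟨h.1.flip h.2, IsInv.flip h.1 h.2 h.2⟩
  · rintro ⟨p, s⟩ h
    simp only [flip_flip]
  · rintro ⟨p, s⟩ h
    simp only [flip_flip]
  · rintro ⟨p, s⟩ h
    simp only [mem_sigma, mem_filter, mem_univ, true_and] at h
    simp only [flip_flip]
    congr 2
    have : univ.filter (IsInv F (flip p s)) = univ.filter (IsInv F p) := by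
      ext s'
      simp only [mem_filter, mem_univ, true_and]
      exact isInv_flip_iff h.1 h.2 s'
    rw [this]

open Classical in
/-- **Block L4 (Step 4).**  If the planar input `Cyc` holds and there is a pair of disjoint
matchings, then some matching `f` has a non-zero signed number of disjoint partners. -/
theorem four (F : B → Fin 3 → Option V) (u : B → Fin 3 → ℝ) (hC : Cyc F u)
    (hex : ∃ (f g : B → Fin 3) (e e' : B ≃ V), IsMat F f e ∧ IsMat F g e' ∧ Disj f g) :
    ∃ f : B → Fin 3, (∃ e : B ≃ V, IsMat F f e) ∧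
      ∑ g ∈ univ.filter (fun g => (∃ e' : B ≃ V, IsMat F g e') ∧ Disj f g), sg f g ≠ 0 := by
  by_contra hcon
  push Not at hcon
  -- the parameter
  set M : ℝ := ∑ b, ∑ c, |u b c| with hM
  have hM0 : 0 ≤ M := Finset.sum_nonneg (fun _ _ => Finset.sum_nonneg (fun _ _ => abs_nonneg _))
  set t : ℝ := 1 / (M + 1) with ht
  have ht0 : 0 < t := by positivity
  have ht1 : t * M ≤ 1 := by
    rw [ht, one_div, inv_mul_le_iff₀ (by positivity)]
    linarith
  -- the sum is zero
  have hzero : ∑ p ∈ univ.filter (IsPair F), wt t u p = 0 := by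
    rw [Finset.sum_filter, Fintype.sum_prod_type]
    apply Finset.sum_eq_zero
    intro f _
    by_cases hf : ∃ e : B ≃ V, IsMat F f e
    · have h0 := hcon f hf
      have h1 : ∀ g : B → Fin 3, (if IsPair F (f, g) then wt t u (f, g) else 0)
          = (∏ b, (Complex.I * Complex.exp ((t * u b (f b) : ℝ) * Complex.I)))
            * (if (∃ e' : B ≃ V, IsMat F g e') ∧ Disj f g then ((sg f g : ℤ) : ℂ) else 0) := by
        intro g
        by_cases hg : (∃ e' : B ≃ V, IsMat F g e') ∧ Disj f g
        · have hp : IsPair F (f, g) := ⟨hf, hg.1, hg.2⟩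
          rw [if_pos hp, if_pos hg]
          unfold wt sg
          push_cast
          rw [← Finset.prod_mul_distrib]
          apply Finset.prod_congr rfl
          intro b _
          ring
        · have hp : ¬ IsPair F (f, g) := fun hp => hg ⟨hp.2.1, hp.2.2⟩
          rw [if_neg hp, if_neg hg, mul_zero]
      rw [Finset.sum_congr rfl (fun g _ => h1 g), ← Finset.mul_sum, ← Finset.sum_filter]
      have h2 : (∑ g ∈ univ.filter (fun g => (∃ e' : B ≃ V, IsMat F g e') ∧ Disj f g), ((sg f g : ℤ) : ℂ)) = 0 := by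
        rw [← Int.cast_sum, h0, Int.cast_zero]
      rw [h2, mul_zero]
    · apply Finset.sum_eq_zero
      intro g _
      rw [if_neg]
      intro hp
      exact hf hp.1
  -- the sum has positive real part
  have hpos : 0 < (∑ p ∈ univ.filter (IsPair F), wt t u p).re := by
    rw [sum_avg, Complex.re_sum]
    apply Finset.sum_pos
    · intro p hp
      have hp' : IsPair F p := (mem_filter.1 hp).2
      obtain ⟨r, hr, hsum⟩ := sum_flip hC ht0 ht1 hp'
      rw [hsum]
      have hc : (0 : ℝ) < ((univ.filter (IsInv F p)).card : ℝ) := by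
        rw [Nat.cast_pos]
        apply Finset.card_pos.2
        exact ⟨fun _ => true, by simp [IsInv]⟩
      set θ : ℝ := t * (∑ b, (u b (p.1 b) + u b (p.2 b)) / 2) with hθ
      have hval : ((((univ.filter (IsInv F p)).card : ℂ))⁻¹
          * (Complex.exp ((θ : ℂ) * Complex.I) * (r : ℂ))).re
          = (((univ.filter (IsInv F p)).card : ℝ))⁻¹ * (Real.cos θ * r) := by
        rw [Complex.exp_mul_I]
        rw [← Complex.ofReal_cos, ← Complex.ofReal_sin, ← Complex.ofReal_natCast, ← Complex.ofReal_inv,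
          Complex.re_ofReal_mul, Complex.re_mul_ofReal]
        simp only [Complex.add_re, Complex.mul_re, Complex.ofReal_re, Complex.ofReal_im, Complex.I_re,
          Complex.I_im, mul_zero, zero_mul, sub_zero, add_zero]
      rw [hval]
      have hθ1 : |θ| ≤ 1 := by
        rw [hθ, abs_mul, abs_of_pos ht0]
        refine (mul_le_mul_of_nonneg_left ?_ ht0.le).trans ht1
        refine (Finset.abs_sum_le_sum_abs _ _).trans ?_
        apply Finset.sum_le_sum
        intro b _
        have h1 : |u b (p.1 b)| ≤ ∑ c, |u b c| :=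
          Finset.single_le_sum (f := fun c => |u b c|) (fun _ _ => abs_nonneg _) (mem_univ _)
        have h2 : |u b (p.2 b)| ≤ ∑ c, |u b c| :=
          Finset.single_le_sum (f := fun c => |u b c|) (fun _ _ => abs_nonneg _) (mem_univ _)
        rw [abs_div, abs_two]
        have h3 := abs_add_le (u b (p.1 b)) (u b (p.2 b))
        linarith
      have hcos : 0 < Real.cos θ := Real.cos_pos_of_le_one hθ1
      positivity
    · obtain ⟨f, g, e, e', he, he', hd⟩ := hex
      exact ⟨(f, g), by simp only [mem_filter, mem_univ, true_and]; exact ⟨⟨e, he⟩, ⟨e', he'⟩, hd⟩⟩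
  rw [hzero] at hpos
  simp at hpos

end

end Vale.Agent.P039.H311
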